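import Vale.Agent.P235.H141.CX.Defs
import Vale.Agent.P235.K5.H12.Red
import Vale.Agent.P235.K5.SX.H452.NHalfEq

set_option linter.all false

/-!
# P235, line CX, row [CX3]: the cut metric of the laws on the vertices of the clique sum
-/

namespace Vale.Agent.P235.CX.H89

open Finset Function Vale.Agent.P235 Vale.Agent.P235.H684 Vale.Agent.P235.K5
  Vale.Agent.P235.H141.CX

/-- **[CX3]** -/
theorem cx3 (hN : NGStmt) : MetStmt := by
  intro k hk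
  obtain ⟨c0, C1, hc0, hC1, hL⟩ := hN k hk
  refine ⟨min c0 1, C1 * H254.KK (2 ^ k), lt_min hc0 one_pos, min_le_right _ _,
    mul_pos hC1 (KK_pos _), ?_⟩
  intro V _ H m B h Tr hnew hone d hd hG φ hφ0 hφ1
  obtain ⟨N, e, Z, h1, h2, h3, h4, h5, h6⟩ := h.exists_tor hnew Tr
  have hsep := h6 d hd hG
  have hS : ∀ (t : Fin m) i, i ∈ Z.S t ↔ e.symm i ∈ Adh B t.val := by
    intro t i
    rw [← h2 t, e.apply_symm_apply]
  have hH : ∀ (t : Fin m) i, i ∈ Z.H t ↔ e.symm i ∈ B t.val := by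
    intro t i
    rw [← h3 t, e.apply_symm_apply]
  have hZ1 : One Z := by
    intro t hup a ha b hb hta htb
    have h0 : 0 < t.val := by
      rcases Nat.eq_zero_or_pos t.val with h0 | h0
      · exfalso
        apply hup
        refine le_antisymm (Z.up_le t) ?_
        rw [Fin.le_def, h0]
        exact Nat.zero_le _
      · exact h0
    have h8 : (Z.up t).val = Tr.par t.val := h4 t
    have hpm : Tr.par t.val < m := (Tr.par_le t.val).trans_lt t.2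
    have key : ∀ i, Z.tor i = Z.up t → e.symm i ∉ Adh B (Tr.par t.val) := by
      intro i hi hc
      have h9 : h.it (e.symm i) = Tr.par t.val := by
        rw [← h1, e.apply_symm_apply, hi, h8]
      have h10 := ((h.mem_adh_iff hpm).1 hc).2
      omega
    have h11 := hone t.val t.2 h0 ⟨(hS t a).1 ha, key a hta⟩ ⟨(hS t b).1 hb, key b htb⟩
    exact e.symm.injective h11
  obtain ⟨μ, Λ, hΛ, hμ, hcons, hup, hlow1, hlow2, hfar⟩ := hL N m Z _ hsep hZ1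
    (fun t i => φ t.val (e.symm i))
    (fun t a ha => hφ0 t.val t.2 _ ((hS t a).1 ha))
    (fun t x hx a ha => hφ1 t.val t.2 _ ((hH t x).1 hx) _ ((hS t a).1 ha))
  obtain ⟨F, g1, g2, g3⟩ := SX.H452.n_half_eq Z hk (d := fun i j => d (e.symm i) (e.symm j))
    hC1.le hΛ hμ hcons hfar
  have hF : IsL1 fun x y => F (e x) (e y) := by
    obtain ⟨ι, hι, w, c, hw, hF⟩ := g1
    exact ⟨ι, hι, w, fun i x => c i (e x), hw, fun x y => hF _ _⟩
  refine ⟨fun x y => F (e x) (e y), hF, ?_, ?_, ?_, ?_⟩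
  · intro t ht x hx y hy
    show F (e x) (e y) ≤ _
    rw [g2 ⟨t, ht⟩ (e x) ((h3 ⟨t, ht⟩ x).2 hx) (e y) ((h3 ⟨t, ht⟩ y).2 hy)]
    have := hup ⟨t, ht⟩ (e x) ((h3 ⟨t, ht⟩ x).2 hx) (e y) ((h3 ⟨t, ht⟩ y).2 hy)
    simpa using this
  · intro t ht x hx y hy
    show _ ≤ F (e x) (e y)
    rw [g2 ⟨t, ht⟩ (e x) ((h3 ⟨t, ht⟩ x).2 hx) (e y) ((h3 ⟨t, ht⟩ y).2 hy)]
    have h7 := hlow1 ⟨t, ht⟩ (e x) ((h3 ⟨t, ht⟩ x).2 hx) (e y) ((h3 ⟨t, ht⟩ y).2 hy)
    simp only [e.symm_apply_apply] at h7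
    exact (mul_le_mul_of_nonneg_right (min_le_left _ _) (abs_nonneg _)).trans h7
  · intro t ht x hx a ha
    show _ ≤ F (e x) (e a)
    rw [g2 ⟨t, ht⟩ (e x) ((h3 ⟨t, ht⟩ x).2 hx) (e a) ((h3 ⟨t, ht⟩ a).2 ha.1)]
    have h7 := hlow2 ⟨t, ht⟩ (e x) ((h3 ⟨t, ht⟩ x).2 hx) (e a) ((h2 ⟨t, ht⟩ a).2 ha)
    simp only [e.symm_apply_apply] at h7
    exact (mul_le_mul_of_nonneg_right (min_le_left _ _) (hd.nonneg _ _)).trans h7
  · intro t ht h0 x hx y hy r hr ha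
    refine g3 ⟨t, ht⟩ (Nat.pos_iff_ne_zero.1 h0) (e x) ((h5 ⟨t, ht⟩ x).2 hx) (e y)
      (fun hc => hy ((h5 ⟨t, ht⟩ y).1 hc)) r hr ?_
    intro a hal
    have := ha _ ((hS ⟨t, ht⟩ a).1 hal)
    simpa using this

end Vale.Agent.P235.CX.H89
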